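import Mathlib

/-!
# Jacobsthal's function (problem P013)
-/

namespace Vale.Agent.P013

open Finset

/-- Jacobsthal's function `j(n)`: the least positive integer `m` such that every set of `m`
consecutive integers contains an integer coprime to `n`. -/
noncomputable def jac (n : ℕ) : ℕ :=
  sInf {m : ℕ | 0 < m ∧ ∀ a : ℤ, ∃ i : ℕ, i < m ∧ IsCoprime (a + i) (n : ℤ)}

lemma jac_le {n m : ℕ} (hm : 0 < m)
    (h : ∀ a : ℤ, ∃ i : ℕ, i < m ∧ IsCoprime (a + i) (n : ℤ)) : jac n ≤ m :=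
  Nat.sInf_le ⟨hm, h⟩

lemma jac_spec {n : ℕ} (hn : n ≠ 0) :
    0 < jac n ∧ ∀ a : ℤ, ∃ i : ℕ, i < jac n ∧ IsCoprime (a + i) (n : ℤ) := by
  have : jac n ∈ {m : ℕ | 0 < m ∧ ∀ a : ℤ, ∃ i : ℕ, i < m ∧ IsCoprime (a + i) (n : ℤ)} := by
    apply Nat.sInf_mem
    refine ⟨n, Nat.pos_of_ne_zero hn, fun a => ?_⟩
    have hn' : (n : ℤ) ≠ 0 := by exact_mod_cast hn
    have hnp : (0 : ℤ) < n := by exact_mod_cast Nat.pos_of_ne_zero hn
    have h0 := Int.emod_nonneg (1 - a) hn'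
    have h1 := Int.emod_lt_of_pos (1 - a) hnp
    refine ⟨((1 - a) % n).toNat, by omega, ?_⟩
    have h2 : (((1 - a) % n).toNat : ℤ) = (1 - a) % n := Int.toNat_of_nonneg h0
    rw [h2]
    have h3 := Int.emod_add_mul_ediv (1 - a) n
    refine ⟨1, (1 - a) / n, ?_⟩
    linarith
  exact this

lemma exists_prime_of_not_coprime {x : ℤ} {n : ℕ} (h : ¬ IsCoprime x (n : ℤ)) :
    ∃ p : ℕ, p.Prime ∧ (p : ℤ) ∣ x ∧ p ∣ n := by
  rw [Int.isCoprime_iff_gcd_eq_one] at h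
  have h' : ¬ Nat.Coprime x.natAbs n := by
    intro h2
    apply h
    simpa [Int.gcd] using h2
  obtain ⟨p, hp, h1, h2⟩ := Nat.Prime.not_coprime_iff_dvd.mp h'
  exact ⟨p, hp, Int.natCast_dvd.mpr h1, h2⟩

lemma not_dvd_of_coprime {x : ℤ} {n p : ℕ} (hp : p.Prime) (h : IsCoprime x (n : ℤ)) (hpn : p ∣ n) :
    ¬ (p : ℤ) ∣ x := by
  intro hx
  have h1 : IsUnit (p : ℤ) := h.isUnit_of_dvd' hx (by exact_mod_cast hpn)
  have h2 : Prime (p : ℤ) := Nat.prime_iff_prime_int.mp hp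
  exact h2.not_isUnit h1

/-- the number of integers in `[a, b)` divisible by no element of `T` -/
noncomputable def sift (T : Finset ℕ) (a b : ℤ) : ℕ := #{x ∈ Ico a b | ∀ p ∈ T, ¬ (p : ℤ) ∣ x}

lemma dvd_mul_prime {p q : ℕ} (hp : p.Prime) (hq : q.Prime) (hne : p ≠ q) (y : ℤ) :
    (p : ℤ) ∣ y * q ↔ (p : ℤ) ∣ y := by
  have hpi : Prime (p : ℤ) := Nat.prime_iff_prime_int.mp hp
  constructor
  · intro h
    rcases hpi.dvd_or_dvd h with h | h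
    · exact h
    · exfalso
      have : p ∣ q := by exact_mod_cast h
      exact hne ((Nat.prime_dvd_prime_iff_eq hp hq).mp this)
  · intro h
    exact Dvd.dvd.mul_right h _

lemma sift_insert {T : Finset ℕ} {q : ℕ} (hq : q.Prime) (hT : ∀ p ∈ T, p.Prime) (hqT : q ∉ T)
    (a b : ℤ) :
    (sift (insert q T) a b : ℝ) = sift T a b - sift T ⌈a / ((q : ℤ) : ℚ)⌉ ⌈b / ((q : ℤ) : ℚ)⌉ := by
  have hqp : (0 : ℤ) < q := by exact_mod_cast hq.pos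
  have h1 := Finset.card_filter_add_card_filter_not (s := {x ∈ Ico a b | ∀ p ∈ T, ¬ (p : ℤ) ∣ x})
    (fun x => (q : ℤ) ∣ x)
  have h2 : ({x ∈ Ico a b | ∀ p ∈ T, ¬ (p : ℤ) ∣ x}.filter (fun x => ¬ (q : ℤ) ∣ x)) =
      {x ∈ Ico a b | ∀ p ∈ insert q T, ¬ (p : ℤ) ∣ x} := by
    ext x
    simp only [mem_filter, mem_insert, forall_eq_or_imp]
    tauto
  have h3 : #({x ∈ Ico a b | ∀ p ∈ T, ¬ (p : ℤ) ∣ x}.filter (fun x => (q : ℤ) ∣ x)) =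
      sift T ⌈a / ((q : ℤ) : ℚ)⌉ ⌈b / ((q : ℤ) : ℚ)⌉ := by
    have h4 : ({x ∈ Ico a b | ∀ p ∈ T, ¬ (p : ℤ) ∣ x}.filter (fun x => (q : ℤ) ∣ x)) =
        ({x ∈ Ico a b | (q : ℤ) ∣ x}).filter (fun x => ∀ p ∈ T, ¬ (p : ℤ) ∣ x) := by
      ext x
      simp only [mem_filter]
      tauto
    rw [h4, Int.Ico_filter_dvd_eq a b hqp, Finset.filter_map, Finset.card_map]
    unfold sift
    congr 1
    apply Finset.filter_congr
    intro y _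
    simp only [Function.comp, Function.Embedding.coeFn_mk]
    constructor
    · intro h p hp hd
      exact h p hp ((dvd_mul_prime (hT p hp) hq (fun e => hqT (e ▸ hp)) y).mpr hd)
    · intro h p hp hd
      exact h p hp ((dvd_mul_prime (hT p hp) hq (fun e => hqT (e ▸ hp)) y).mp hd)
  rw [h2, h3] at h1
  have h5 : sift T a b = #{x ∈ Ico a b | ∀ p ∈ T, ¬ (p : ℤ) ∣ x} := rfl
  have h6 : sift (insert q T) a b = #{x ∈ Ico a b | ∀ p ∈ insert q T, ¬ (p : ℤ) ∣ x} := rfl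
  rw [h5, h6, ← h1]
  push_cast
  ring

lemma ceil_est (a b : ℤ) (q : ℕ) :
    |(((⌈b / ((q : ℤ) : ℚ)⌉ : ℤ) : ℝ) - ((⌈a / ((q : ℤ) : ℚ)⌉ : ℤ) : ℝ)) - ((b : ℝ) - a) / q| ≤ 1 := by
  have h1 : ((⌈b / ((q : ℤ) : ℚ)⌉ : ℤ) : ℚ) < b / ((q : ℤ) : ℚ) + 1 := Int.ceil_lt_add_one _
  have h2 : (b / ((q : ℤ) : ℚ) : ℚ) ≤ ((⌈b / ((q : ℤ) : ℚ)⌉ : ℤ) : ℚ) := Int.le_ceil _
  have h3 : ((⌈a / ((q : ℤ) : ℚ)⌉ : ℤ) : ℚ) < a / ((q : ℤ) : ℚ) + 1 := Int.ceil_lt_add_one _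
  have h4 : (a / ((q : ℤ) : ℚ) : ℚ) ≤ ((⌈a / ((q : ℤ) : ℚ)⌉ : ℤ) : ℚ) := Int.le_ceil _
  have h5 : |(((⌈b / ((q : ℤ) : ℚ)⌉ : ℤ) : ℚ) - ((⌈a / ((q : ℤ) : ℚ)⌉ : ℤ) : ℚ)) -
      ((b : ℚ) - a) / q| ≤ 1 := by
    rw [abs_le, sub_div]
    push_cast at *
    constructor <;> linarith
  exact_mod_cast h5

lemma one_sub_inv_mem {p : ℕ} (hp : p.Prime) : 0 ≤ 1 - 1 / (p : ℝ) ∧ 1 - 1 / (p : ℝ) ≤ 1 := by
  have h2 : (1 : ℝ) ≤ p := by exact_mod_cast hp.one_lt.le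
  have h3 : 1 / (p : ℝ) ≤ 1 := by
    rw [div_le_one (by linarith)]
    exact h2
  have h4 : 0 ≤ 1 / (p : ℝ) := by positivity
  constructor <;> linarith

lemma sift_est (T : Finset ℕ) : (∀ p ∈ T, p.Prime) → ∀ a b : ℤ, a ≤ b →
    |(sift T a b : ℝ) - (b - a) * ∏ p ∈ T, (1 - 1 / (p : ℝ))| ≤ 2 ^ T.card - 1 := by
  induction T using Finset.induction_on with
  | empty =>
    intro _ a b h
    have h1 : (sift ∅ a b : ℝ) = b - a := by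
      have h2 : sift ∅ a b = (b - a).toNat := by simp [sift]
      rw [h2]
      have h3 : (((b - a).toNat : ℤ) : ℝ) = ((b - a : ℤ) : ℝ) := by
        rw [Int.toNat_of_nonneg (by omega)]
      push_cast at h3
      exact_mod_cast h3
    simp [h1]
  | insert q T hq ih =>
    intro hT a b h
    have hqp : q.Prime := hT q (mem_insert_self _ _)
    have hT' : ∀ p ∈ T, p.Prime := fun p hp => hT p (mem_insert_of_mem hp)
    have hq0 : (0 : ℚ) < ((q : ℤ) : ℚ) := by exact_mod_cast hqp.pos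
    have hab : ⌈a / ((q : ℤ) : ℚ)⌉ ≤ ⌈b / ((q : ℤ) : ℚ)⌉ := by
      apply Int.ceil_mono
      apply div_le_div_of_nonneg_right _ hq0.le
      exact_mod_cast h
    have e1 := ih hT' a b h
    have e2 := ih hT' _ _ hab
    have e3 := ceil_est a b q
    rw [sift_insert hqp hT' hq, prod_insert hq, card_insert_of_notMem hq]
    set W := ∏ p ∈ T, (1 - 1 / (p : ℝ)) with hW
    have hW0 : 0 ≤ W := prod_nonneg fun p hp => (one_sub_inv_mem (hT' p hp)).1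
    have hW1 : W ≤ 1 := prod_le_one (fun p hp => (one_sub_inv_mem (hT' p hp)).1)
      fun p hp => (one_sub_inv_mem (hT' p hp)).2
    set A := (((⌈b / ((q : ℤ) : ℚ)⌉ : ℤ) : ℝ) - ((⌈a / ((q : ℤ) : ℚ)⌉ : ℤ) : ℝ)) with hA
    have e4 : |(A - ((b : ℝ) - a) / q) * W| ≤ 1 := by
      rw [abs_mul, abs_of_nonneg hW0]
      exact mul_le_one₀ e3 hW0 hW1
    have e5 : (sift T a b : ℝ) - (sift T ⌈a / ((q : ℤ) : ℚ)⌉ ⌈b / ((q : ℤ) : ℚ)⌉ : ℝ) -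
        ((b : ℝ) - a) * ((1 - 1 / (q : ℝ)) * W) =
        ((sift T a b : ℝ) - (b - a) * W) -
        ((sift T ⌈a / ((q : ℤ) : ℚ)⌉ ⌈b / ((q : ℤ) : ℚ)⌉ : ℝ) - A * W) -
        (A - ((b : ℝ) - a) / q) * W := by ring
    rw [e5]
    have e6 : (2 : ℝ) ^ (T.card + 1) = 2 * 2 ^ T.card := by ring
    rw [e6]
    rw [abs_le] at *
    constructor <;> linarith [e1.1, e1.2, e2.1, e2.2, e4.1, e4.2]

lemma card_dvd_le (a : ℤ) (m p : ℕ) (hp : 0 < p) :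
    (#{x ∈ Ico a (a + m) | (p : ℤ) ∣ x} : ℝ) ≤ m / p + 1 := by
  have hp' : (0 : ℤ) < p := by exact_mod_cast hp
  rw [Int.Ico_filter_dvd_eq _ _ hp', card_map, Int.card_Ico]
  have e := ceil_est a (a + m) p
  have hab : ⌈(a : ℚ) / ((p : ℤ) : ℚ)⌉ ≤ ⌈((a + m : ℤ) : ℚ) / ((p : ℤ) : ℚ)⌉ := by
    apply Int.ceil_mono
    apply div_le_div_of_nonneg_right _ (by exact_mod_cast hp.le)
    push_cast
    have : (0 : ℚ) ≤ m := by positivity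
    linarith
  have h3 : (((⌈((a + m : ℤ) : ℚ) / ((p : ℤ) : ℚ)⌉ - ⌈(a : ℚ) / ((p : ℤ) : ℚ)⌉).toNat : ℤ) : ℝ) =
      ((⌈((a + m : ℤ) : ℚ) / ((p : ℤ) : ℚ)⌉ - ⌈(a : ℚ) / ((p : ℤ) : ℚ)⌉ : ℤ) : ℝ) := by
    rw [Int.toNat_of_nonneg (by omega)]
  have h4 : (((⌈((a + m : ℤ) : ℚ) / ((p : ℤ) : ℚ)⌉ - ⌈(a : ℚ) / ((p : ℤ) : ℚ)⌉).toNat : ℕ) : ℝ) =
      ((⌈((a + m : ℤ) : ℚ) / ((p : ℤ) : ℚ)⌉ - ⌈(a : ℚ) / ((p : ℤ) : ℚ)⌉ : ℤ) : ℝ) := by
    exact_mod_cast h3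
  rw [h4]
  rw [abs_le] at e
  have e2 := e.2
  push_cast at *
  have : ((a : ℝ) + m - a) / p = m / p := by ring_nf
  rw [this] at e2
  linarith

lemma killed_le (R : Finset ℕ) (hR : ∀ p ∈ R, 0 < p) (a : ℤ) (m : ℕ) :
    (#{x ∈ Ico a (a + m) | ∃ p ∈ R, (p : ℤ) ∣ x} : ℝ) ≤ m * ∑ p ∈ R, 1 / (p : ℝ) + R.card := by
  have h1 : {x ∈ Ico a (a + m) | ∃ p ∈ R, (p : ℤ) ∣ x} ⊆
      R.biUnion (fun p => {x ∈ Ico a (a + m) | (p : ℤ) ∣ x}) := by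
    intro x hx
    simp only [mem_filter, mem_biUnion] at *
    obtain ⟨h1, p, hp, h2⟩ := hx
    exact ⟨p, hp, h1, h2⟩
  have h2 : #{x ∈ Ico a (a + m) | ∃ p ∈ R, (p : ℤ) ∣ x} ≤
      ∑ p ∈ R, #{x ∈ Ico a (a + m) | (p : ℤ) ∣ x} :=
    (card_le_card h1).trans card_biUnion_le
  calc (#{x ∈ Ico a (a + m) | ∃ p ∈ R, (p : ℤ) ∣ x} : ℝ)
      ≤ ((∑ p ∈ R, #{x ∈ Ico a (a + m) | (p : ℤ) ∣ x} : ℕ) : ℝ) := by exact_mod_cast h2
    _ = ∑ p ∈ R, (#{x ∈ Ico a (a + m) | (p : ℤ) ∣ x} : ℝ) := by push_cast; rfl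
    _ ≤ ∑ p ∈ R, ((m : ℝ) / p + 1) := sum_le_sum fun p hp => card_dvd_le a m p (hR p hp)
    _ = m * ∑ p ∈ R, 1 / (p : ℝ) + R.card := by
        rw [sum_add_distrib, mul_sum]
        simp [div_eq_mul_inv]

lemma prod_ge (T : Finset ℕ) : (∀ p ∈ T, p.Prime) →
    1 / ((T.card : ℝ) + 1) ≤ ∏ p ∈ T, (1 - 1 / (p : ℝ)) := by
  induction T using Finset.induction_on_max with
  | empty => intro _; simp
  | insert q T hlt ih =>
    intro hT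
    have hqT : q ∉ T := fun h => lt_irrefl _ (hlt q h)
    have hT' : ∀ p ∈ T, p.Prime := fun p hp => hT p (mem_insert_of_mem hp)
    have hqp : q.Prime := hT q (mem_insert_self _ _)
    rw [prod_insert hqT, card_insert_of_notMem hqT]
    have h1 : T ⊆ Ico 2 q := by
      intro p hp
      rw [mem_Ico]
      exact ⟨(hT' p hp).two_le, hlt p hp⟩
    have h2 : T.card ≤ q - 2 := by
      have := card_le_card h1
      rwa [Nat.card_Ico] at this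
    have h3 : T.card + 2 ≤ q := by
      have := hqp.two_le
      omega
    have h4 : (T.card : ℝ) + 2 ≤ q := by exact_mod_cast h3
    have h5 : (0 : ℝ) ≤ T.card := by positivity
    have h6 : 1 / (q : ℝ) ≤ 1 / ((T.card : ℝ) + 2) := by
      apply one_div_le_one_div_of_le _ h4
      positivity
    have h7 : 1 / (((T.card + 1 : ℕ) : ℝ) + 1) =
        (1 - 1 / ((T.card : ℝ) + 2)) * (1 / ((T.card : ℝ) + 1)) := by
      push_cast
      field_simp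
      ring
    rw [h7]
    apply mul_le_mul _ (ih hT') (by positivity) (one_sub_inv_mem hqp).1
    linarith

/-- the main sieve bound -/
lemma exists_coprime {n : ℕ} (hn : n ≠ 0) (T : Finset ℕ) (hT : T ⊆ n.primeFactors)
    (hR : ∑ p ∈ n.primeFactors \ T, 1 / (p : ℝ) ≤ (∏ p ∈ T, (1 - 1 / (p : ℝ))) / 2)
    (m : ℕ) (hm : 2 * (2 ^ T.card + ((n.primeFactors \ T).card : ℝ)) <
      m * ∏ p ∈ T, (1 - 1 / (p : ℝ))) (a : ℤ) :
    ∃ i : ℕ, i < m ∧ IsCoprime (a + i) (n : ℤ) := by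
  have hTp : ∀ p ∈ T, p.Prime := fun p hp => Nat.prime_of_mem_primeFactors (hT hp)
  by_contra hcon
  push Not at hcon
  have hsub : {x ∈ Ico a (a + m) | ∀ p ∈ T, ¬ (p : ℤ) ∣ x} ⊆
      {x ∈ Ico a (a + m) | ∃ p ∈ n.primeFactors \ T, (p : ℤ) ∣ x} := by
    intro x hx
    rw [mem_filter] at *
    refine ⟨hx.1, ?_⟩
    have hx1 := mem_Ico.mp hx.1
    have h1 := hcon (x - a).toNat (by omega)
    have h2 : a + ((x - a).toNat : ℤ) = x := by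
      rw [Int.toNat_of_nonneg (by omega)]
      ring
    rw [h2] at h1
    obtain ⟨p, hp, hpx, hpn⟩ := exists_prime_of_not_coprime h1
    refine ⟨p, ?_, hpx⟩
    rw [mem_sdiff]
    exact ⟨Nat.mem_primeFactors.mpr ⟨hp, hpn, hn⟩, fun h => hx.2 p h hpx⟩
  have h1 : (sift T a (a + m) : ℝ) ≤
      (#{x ∈ Ico a (a + m) | ∃ p ∈ n.primeFactors \ T, (p : ℤ) ∣ x} : ℝ) := by
    exact_mod_cast card_le_card hsub
  have h2 := killed_le (n.primeFactors \ T)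
    (fun p hp => (Nat.prime_of_mem_primeFactors (mem_sdiff.mp hp).1).pos) a m
  have h3 := sift_est T hTp a (a + m) (by omega)
  rw [abs_le] at h3
  have h4 := h3.1
  push_cast at h4
  have h5 : (a : ℝ) + m - a = m := by ring
  rw [h5] at h4
  have h6 : (m : ℝ) * ∑ p ∈ n.primeFactors \ T, 1 / (p : ℝ) ≤
      m * ((∏ p ∈ T, (1 - 1 / (p : ℝ))) / 2) := mul_le_mul_of_nonneg_left hR (by positivity)
  linarith

end Vale.Agent.P013
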